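import Vale.Agent.P270.R2.H73.Stmt
import Vale.Agent.P272.XT.X11
import Vale.Agent.P272.JN.Chain

/-!
# P270 / P285, Theorem R1, module M2: the second variation with a moving centre for a weighted speed

`curvW`: `∂_s ∂_s̄ (ρ |∂_z Γ|²_w) ≥ - C' ρ |∂_z Γ|²_w |∂_s Γ|²_w` if `i∂∂̄ log ρ ≥ - C w`, with `C'`
independent of `ρ`. The curvature inequality `XT.curv` is applied to `Γ(s, z + h(s)(z' - z))`, `h`
holomorphic, `|h|² = ρ` to first order.
-/

open scoped Manifold ContDiff ComplexOrder Topology ENNReal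
open MeasureTheory Metric Set Filter

set_option linter.all false

noncomputable section

namespace Vale.Agent.P270.R2.H877

open Vale.Agent.P272 Vale.Agent.P272.K Vale.Agent.P272.BR Vale.Agent.P272.HY Vale.Agent.P272.GJ
  Vale.Agent.P272.EX Vale.Agent.P272.XT
open Vale.Agent.P272.K.AMP (hess)
open Vale.Agent.P270.R2.H73 (wt X11bW)

section basic
variable {n : ℕ}

lemma quad_rsmul_re (a : ℝ) (M : Matrix (Fin n) (Fin n) ℂ) (v : Cm n) :
    (quad (((a : ℝ) : ℂ) • M) v).re = a * (quad M v).re := by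
  have h : quad (((a : ℝ) : ℂ) • M) v = ((a : ℝ) : ℂ) * quad M v := by
    unfold quad
    rw [Finset.mul_sum]
    refine Finset.sum_congr rfl fun i _ => ?_
    rw [Finset.mul_sum]
    refine Finset.sum_congr rfl fun j _ => ?_
    simp only [Matrix.smul_apply, smul_eq_mul]
    ring
  rw [h, Complex.re_ofReal_mul]

lemma quad_add_re (M N : Matrix (Fin n) (Fin n) ℂ) (v : Cm n) :
    (quad (M + N) v).re = (quad M v).re + (quad N v).re := by
  have h : quad (M + N) v = quad M v + quad N v := by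
    unfold quad
    rw [← Finset.sum_add_distrib]
    refine Finset.sum_congr rfl fun i _ => ?_
    rw [← Finset.sum_add_distrib]
    refine Finset.sum_congr rfl fun j _ => ?_
    simp only [Matrix.add_apply]
    ring
  rw [h, Complex.add_re]

variable {X : Type} [TopologicalSpace X] [ChartedSpace (Cm n) X]
  {w : Chart n X → Cm n → Matrix (Fin n) (Fin n) ℂ}

lemma spd_wt (ρ : X → ℝ) (f : ℂ → X) (z : ℂ) : spd (wt ρ w) f z = ρ (f z) * spd w f z := by
  unfold spd wt
  rw [(at_chartAt (n := n) (f z)).left_inv, quad_rsmul_re]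

lemma wt_herm {ρ : X → ℝ} (hw : IsHermitian w) (hρ : SmoothFn (n := n) ρ) (hpos : ∀ x, 0 < ρ x) :
    IsHermitian (wt ρ w) where
  smooth e x hx i j := by
    have h1 : ContDiffAt ℝ ∞ (fun z => ((ρ (e.symm z) : ℝ) : ℂ)) (e x) :=
      (Complex.ofRealCLM.contDiff.contDiffAt).comp (e x) (hρ e x hx)
    exact h1.mul (hw.smooth e x hx i j)
  posDef e x hx := by
    have h1 := (hw.posDef e x hx).smul (hpos x)
    have h2 : wt ρ w e (e x) = ρ x • w e (e x) := by
      unfold wt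
      rw [hx.left_inv]
      ext i j
      simp
    rw [h2]
    exact h1
  change e e' x hx hx' := by
    have h2 : wt ρ w e (e x) = ((ρ x : ℝ) : ℂ) • w e (e x) := by
      unfold wt
      rw [hx.left_inv]
    have h3 : wt ρ w e' (e' x) = ((ρ x : ℝ) : ℂ) • w e' (e' x) := by
      unfold wt
      rw [hx'.left_inv]
    rw [h2, h3, hw.change e e' x hx hx', Matrix.mul_smul, Matrix.smul_mul]

end basic

/-! ### calculus -/

lemma clm_zero {L : ℂ →L[ℝ] ℝ} (h1 : L 1 = 0) (h2 : L Complex.I = 0) : L = 0 := by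
  ext v
  have hv : v = v.re • (1 : ℂ) + v.im • Complex.I := by
    apply Complex.ext <;> simp
  rw [hv, map_add, map_smul, map_smul, h1, h2]
  simp

/-- `∂∂̄ (U e^r) = ∂∂̄ U + U ∂∂̄ r` at a point where `r` vanishes to first order -/
lemma ddb_mul_exp {U r : ℂ → ℝ} {s : ℂ} (hU : ContDiffAt ℝ 2 U s) (hr : ContDiffAt ℝ 2 r s)
    (h0 : r s = 0) (h1 : fderiv ℝ r s = 0) :
    ddb (fun σ => U σ * Real.exp (r σ)) s = ddb U s + U s * ddb r s := by
  have hUe : ∀ᶠ σ in 𝓝 s, DifferentiableAt ℝ U σ := by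
    filter_upwards [hU.eventually (by simp)] with σ hσ using hσ.differentiableAt (by norm_num)
  have hre : ∀ᶠ σ in 𝓝 s, DifferentiableAt ℝ r σ := by
    filter_upwards [hr.eventually (by simp)] with σ hσ using hσ.differentiableAt (by norm_num)
  have key : ∀ v : ℂ, fderiv ℝ (fun σ => fderiv ℝ (fun σ => U σ * Real.exp (r σ)) σ v) s v =
      fderiv ℝ (fun σ => fderiv ℝ U σ v) s v + U s * fderiv ℝ (fun σ => fderiv ℝ r σ v) s v := by
    intro v
    have e1 : (fun σ => fderiv ℝ (fun σ => U σ * Real.exp (r σ)) σ v) =ᶠ[𝓝 s]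
        fun σ => Real.exp (r σ) * fderiv ℝ U σ v + (U σ * Real.exp (r σ)) * fderiv ℝ r σ v := by
      filter_upwards [hUe, hre] with σ a b
      have h3 : HasFDerivAt (fun σ => U σ * Real.exp (r σ))
        (U σ • (Real.exp (r σ) • fderiv ℝ r σ) + Real.exp (r σ) • fderiv ℝ U σ) σ :=
        a.hasFDerivAt.mul b.hasFDerivAt.exp
      rw [h3.fderiv]
      simp
      ring
    have dU : DifferentiableAt ℝ (fun σ => fderiv ℝ U σ v) s :=
      ((hU.fderiv_right (m := 1) (by norm_num)).clm_apply contDiffAt_const).differentiableAt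
        (by norm_num)
    have dr : DifferentiableAt ℝ (fun σ => fderiv ℝ r σ v) s :=
      ((hr.fderiv_right (m := 1) (by norm_num)).clm_apply contDiffAt_const).differentiableAt
        (by norm_num)
    have dU0 : DifferentiableAt ℝ U s := hU.differentiableAt (by norm_num)
    have dE : HasFDerivAt (fun σ => Real.exp (r σ)) (Real.exp (r s) • fderiv ℝ r s) s :=
      (hr.differentiableAt (by norm_num)).hasFDerivAt.exp
    rw [e1.fderiv_eq]
    have h4 := (dE.mul dU.hasFDerivAt).add ((dU0.hasFDerivAt.mul dE).mul dr.hasFDerivAt)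
    have h5 : fderiv ℝ (fun σ => Real.exp (r σ) * fderiv ℝ U σ v +
      (U σ * Real.exp (r σ)) * fderiv ℝ r σ v) s = _ := h4.fderiv
    rw [h5]
    simp [h0, h1]
  unfold ddb
  rw [key, key]
  ring

section curv
variable {n : ℕ} {X : Type} [TopologicalSpace X] [ChartedSpace (Cm n) X]
  [IsManifold 𝓘(ℂ, Cm n) ω X] {w : Chart n X → Cm n → Matrix (Fin n) (Fin n) ℂ}

/-- precomposition of a family with a holomorphic map of the second variable -/
lemma holAt2_precomp {Γ : ℂ → ℂ → X} {s z : ℂ} (h : ∀ᶠ p in 𝓝 ((s, z) : ℂ × ℂ), HolAt2 n Γ p)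
    {k : ℂ → ℂ} (hk : Differentiable ℂ k) :
    ∀ᶠ p in 𝓝 ((s, z) : ℂ × ℂ), HolAt2 n (fun σ z' => Γ σ (z + k σ * (z' - z))) p := by
  set Ψ : ℂ × ℂ → ℂ × ℂ := fun q => (q.1, z + k q.1 * (q.2 - z)) with hΨ
  have hd : Differentiable ℂ Ψ := by
    refine differentiable_fst.prodMk ?_
    exact (differentiable_const z).add ((hk.comp differentiable_fst).mul
      (differentiable_snd.sub (differentiable_const z)))
  have h0 : Ψ (s, z) = (s, z) := by simp [hΨ]
  have ht : Tendsto Ψ (𝓝 (s, z)) (𝓝 (s, z)) := by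
    have := hd.continuous.tendsto (s, z)
    rwa [h0] at this
  filter_upwards [ht.eventually h] with p hp
  refine ⟨?_, fun e he => ?_⟩
  · exact ContinuousAt.comp (g := fun q : ℂ × ℂ => Γ q.1 q.2) (f := Ψ) hp.1 hd.continuous.continuousAt
  · exact DifferentiableAt.comp (g := fun q : ℂ × ℂ => e (Γ q.1 q.2)) (f := Ψ) p (hp.2 e he) (hd p)

/-- **the weighted curvature inequality**; the constant does not depend on the weight `ρ` -/
theorem curvW [CompactSpace X] (hw : IsHermitian w) {C : ℝ} (hC : 0 ≤ C) :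
    ∃ Cw : ℝ, 0 ≤ Cw ∧ ∀ ρ : X → ℝ, SmoothFn (n := n) ρ → (∀ x, 0 < ρ x) →
      (∀ e x, At e x →
        (hess (fun y => Real.log (ρ y)) e (e x) + (C : ℂ) • w e (e x)).PosSemidef) →
      ∀ (Γ : ℂ → ℂ → X) (s z : ℂ), (∀ᶠ p in 𝓝 ((s, z) : ℂ × ℂ), HolAt2 n Γ p) →
      -(Cw * spd (wt ρ w) (Γ s) z * spd w (fun σ => Γ σ z) s) ≤
        ddb (fun σ => spd (wt ρ w) (Γ σ) z) s := by
  obtain ⟨C₁, hC1, hcurv⟩ := curv (n := n) hw
  refine ⟨C₁ + C, by positivity, fun ρ hρ hpos hlow Γ s z h => ?_⟩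
  -- the curve of the centres
  have hincl : ContinuousAt (fun σ : ℂ => ((σ, z) : ℂ × ℂ)) s := by fun_prop
  have hΓ : ∀ᶠ σ in 𝓝 s, HolAt2 n Γ (σ, z) := hincl.eventually h
  have hg : ∀ᶠ σ in 𝓝 s, HolAt n (fun σ => Γ σ z) σ := hΓ.mono fun σ hσ => hσ.fst
  set R : ℂ → ℝ := fun σ => Real.log (ρ (Γ σ z)) with hRdef
  have hlog : SmoothFn (n := n) (fun x => Real.log (ρ x)) := Vale.Agent.P272.K.AMP.sm_log hρ hpos
  have he : At (chartAt (Cm n) (Γ s z) : Chart n X) (Γ s z) := at_chartAt _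
  have hRc : ContDiffAt ℝ 2 R s := by
    have h1 := (hlog _ _ he).of_le two_le_infty
    exact S3.contDiffAt_fun_comp (k := 2) (u := fun x => Real.log (ρ x)) hg he h1
  set q : ℝ := spd w (fun σ => Γ σ z) s with hq
  have hq0 : 0 ≤ q := spd_nonneg hw _ _
  have hRd : -(C * q) ≤ ddb R s := by
    have h1 := S3.ddb_fun_comp (u := fun x => Real.log (ρ x)) hg he
      ((hlog _ _ he).of_le two_le_infty)
    have h2 := quad_nonneg (hlow _ _ he)
      (vel (fun σ => Γ σ z) (chartAt (Cm n) (Γ s z)) s)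
    rw [quad_add_re, quad_rsmul_re] at h2
    have h3 : ddb R s = (quad (hess (fun y => Real.log (ρ y)) (chartAt (Cm n) (Γ s z))
      (chartAt (Cm n) (Γ s z) (Γ s z))) (vel (fun σ => Γ σ z) (chartAt (Cm n) (Γ s z)) s)).re := h1
    have h4 : q = (quad (w (chartAt (Cm n) (Γ s z)) (chartAt (Cm n) (Γ s z) (Γ s z)))
      (vel (fun σ => Γ σ z) (chartAt (Cm n) (Γ s z)) s)).re := rfl
    rw [h3, h4]
    linarith
  -- the holomorphic function with the same first order
  set a : ℂ := ((fderiv ℝ R s 1 / 2 : ℝ) : ℂ) - ((fderiv ℝ R s Complex.I / 2 : ℝ) : ℂ) * Complex.I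
    with ha
  set k : ℂ → ℂ := fun σ => Complex.exp (((R s / 2 : ℝ) : ℂ) + a * (σ - s)) with hk
  have hkd : Differentiable ℂ k := by
    refine Differentiable.cexp ?_
    fun_prop
  have hkn : ∀ σ, ‖k σ‖ ^ 2 = Real.exp (R s + 2 * (a * (σ - s)).re) := by
    intro σ
    rw [hk]
    simp only
    rw [Complex.norm_exp, ← Real.exp_nat_mul]
    congr 1
    simp
    ring
  set L : ℂ →L[ℝ] ℝ := -((2 : ℝ) • (Complex.reCLM.comp ((ContinuousLinearMap.mul ℝ ℂ) a))) with hL
  have hLv : ∀ v : ℂ, L v = -(2 * (a * v).re) := by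
    intro v
    simp [hL]
  set c : ℝ := -(R s) + 2 * (a * s).re with hc
  set r : ℂ → ℝ := fun σ => R σ + (c + L σ + ‖σ‖ ^ 2 * 0) with hr
  have hrv : ∀ σ, r σ = R σ - (R s + 2 * (a * (σ - s)).re) := by
    intro σ
    rw [hr]
    simp only
    rw [hLv, hc, mul_sub, Complex.sub_re]
    ring
  have haffc : ContDiffAt ℝ 2 (fun σ : ℂ => c + L σ + ‖σ‖ ^ 2 * 0) s := by
    refine ContDiffAt.add (contDiffAt_const.add L.contDiff.contDiffAt) ?_
    simp only [mul_zero]
    exact contDiffAt_const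
  have hrc : ContDiffAt ℝ 2 r s := hRc.add haffc
  have hrdd : ddb r s = ddb R s := by
    rw [hr, JN.ddb_add hRc haffc, ddb_aff, add_zero]
  have hr0 : r s = 0 := by
    rw [hrv]; simp
  have hr1 : fderiv ℝ r s = 0 := by
    have h1 : HasFDerivAt r (fderiv ℝ R s + L) s := by
      have h2 : HasFDerivAt (fun σ : ℂ => c + L σ + ‖σ‖ ^ 2 * 0) L s := by
        simp only [mul_zero, add_zero]
        exact L.hasFDerivAt.const_add c
      exact (hRc.differentiableAt (by norm_num)).hasFDerivAt.add h2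
    rw [h1.fderiv]
    refine clm_zero ?_ ?_
    · rw [add_apply, hLv, ha]
      simp
      ring
    · rw [add_apply, hLv, ha]
      simp
      ring
  -- the new family
  set Γ' : ℂ → ℂ → X := fun σ z' => Γ σ (z + k σ * (z' - z)) with hΓ'
  have h' : ∀ᶠ p in 𝓝 ((s, z) : ℂ × ℂ), HolAt2 n Γ' p := holAt2_precomp h hkd
  have key := hcurv Γ' s z h'
  have e1 : (fun σ => Γ' σ z) = fun σ => Γ σ z := by
    funext σ
    simp [hΓ']
  have e2 : ∀ σ, HolAt2 n Γ (σ, z) → spd w (Γ' σ) z = ‖k σ‖ ^ 2 * spd w (Γ σ) z := by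
    intro σ hσ
    have hφ : HasDerivAt (fun z' : ℂ => z + k σ * (z' - z)) (k σ) z := by
      have := (((hasDerivAt_id z).sub_const z).const_mul (k σ)).const_add z
      simpa using this
    have hf : HolAt n (Γ σ) ((fun z' : ℂ => z + k σ * (z' - z)) z) := by
      simpa using hσ.snd
    have h1 := spd_comp (h := w) (f := Γ σ) (z := z) (φ := fun z' : ℂ => z + k σ * (z' - z)) hf
      hφ.differentiableAt
    rw [hφ.deriv] at h1
    have h2 : z + k σ * (z - z) = z := by ring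
    simp only [h2] at h1
    exact h1
  set U : ℂ → ℝ := fun σ => ‖k σ‖ ^ 2 * spd w (Γ σ) z with hU
  have hUc : ContDiffAt ℝ 2 U s := by
    refine ContDiffAt.mul ?_ (contDiffAt_spd_slice hw h)
    have h1 : (fun σ => ‖k σ‖ ^ 2) = fun σ => Real.exp (R s + 2 * (a * (σ - s)).re) :=
      funext hkn
    rw [h1]
    refine ContDiffAt.exp ?_
    refine contDiffAt_const.add (contDiffAt_const.mul ?_)
    exact Complex.reCLM.contDiff.contDiffAt.comp s
      (contDiffAt_const.mul (contDiffAt_id.sub contDiffAt_const))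
  have e3 : (fun σ => spd w (Γ' σ) z) =ᶠ[𝓝 s] U := by
    filter_upwards [hΓ] with σ hσ using e2 σ hσ
  have e4 : ∀ σ, spd (wt ρ w) (Γ σ) z = U σ * Real.exp (r σ) := by
    intro σ
    rw [spd_wt, hU]
    simp only
    rw [hkn, hrv]
    have h1 : ρ (Γ σ z) = Real.exp (R σ) := by
      rw [hRdef]
      simp only
      rw [Real.exp_log (hpos _)]
    rw [h1]
    have h2 : Real.exp (R σ) = Real.exp (R s + 2 * (a * (σ - s)).re) *
        Real.exp (R σ - (R s + 2 * (a * (σ - s)).re)) := by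
      rw [← Real.exp_add]
      congr 1
      ring
    rw [h2]
    ring
  have e5 : (fun σ => spd (wt ρ w) (Γ σ) z) = fun σ => U σ * Real.exp (r σ) := funext e4
  rw [e5, ddb_mul_exp hUc hrc hr0 hr1, hrdd]
  have e8 : spd w (Γ' s) z = U s := e3.self_of_nhds
  rw [e1, S3.ddb_congr e3, e8] at key
  have e6 : spd (wt ρ w) (Γ s) z = U s := by rw [e4, hr0, Real.exp_zero, mul_one]
  rw [e6]
  have hU0 : 0 ≤ U s := by
    have := spd_nonneg hw (Γ s) z
    rw [hU]
    positivity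
  have h7 := mul_le_mul_of_nonneg_left hRd hU0
  rw [← hq] at key
  nlinarith

end curv

/-- **M2** -/
theorem x11bW (n : ℕ) (X : Type) [TopologicalSpace X] [ChartedSpace (Cm n) X]
    [IsManifold 𝓘(ℂ, Cm n) ω X] [CompactSpace X] : X11bW n X := by
  intro w hw C hC
  obtain ⟨Cw, hCw, hcurv⟩ := curvW (n := n) hw hC
  refine ⟨Cw, hCw, fun ρ hρ hpos hlow w' hw' lam δ f F hlam hm hF p => ?_⟩
  have hW := SV.pf_diff p
  have h00 : (0 : ℂ) ∈ closedBall (0 : ℂ) 1 := mem_closedBall_self zero_le_one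
  have h01 : (0 : ℂ) ∈ ball (0 : ℂ) 1 := mem_ball_self one_pos
  have key := SV.sv (wt_herm hw hρ hpos) hw' hlam hm hF hW
  obtain ⟨ε, hε0, hε⟩ := exists_eps (W := SV.pf p) hF.pos hW.continuous.continuousOn
  have hev : ∀ᶠ q in 𝓝 (((0 : ℂ), (0 : ℂ)) : ℂ × ℂ), HolAt2 n (Gam F (SV.pf p)) q :=
    ev_of_prod (fun s hs z hz => gam_holAt2 hF hW hε hs hz) (mem_ball_self hε0) h01
  have h1 := hcurv ρ hρ hpos hlow (Gam F (SV.pf p)) 0 0 hev
  rw [spd_congr (SV.gam_zero_ev hF h01), gam_spd_zero hw hF hε hε0 h00] at h1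
  rw [SV.JJ_one] at key
  have h2 : (fun z => hq (pbM w' F z) (SV.pf p z)) =
    fun z => hq (pbM w' F z) (fun i => (p i).eval z) := rfl
  have h3 : hq (pbM w F 0) (SV.pf p 0) = hq (pbM w F 0) (fun i => (p i).eval 0) := rfl
  rw [h3] at h1
  simp only [h2] at key
  have h4 : ∫ z in ball (0 : ℂ) 1, 1 / Real.pi * hq (pbM w' F z) (SV.pf p z) =
    ∫ z in ball (0 : ℂ) 1, 1 / Real.pi * hq (pbM w' F z) (fun i => (p i).eval z) := rfl
  rw [h4] at key
  linarith

end Vale.Agent.P270.R2.H877
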